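import Vale.Agent.P022.H494.Main1
import Vale.Agent.P022.H545.Core
import Vale.Agent.P022.H587.Lim
import Vale.Agent.P022.H587.App1
import Vale.Agent.P022.H576.Sup
import Vale.Agent.P022.H576.Nrm
import Vale.Agent.P022.H761.Van
import Vale.Agent.P022.H761.Thi
import Vale.Agent.P022.H964.Mft
import Vale.Agent.P022.H138.LawF
import Vale.Agent.P022.H420.Po
import Vale.Agent.P022.H724.IB
import Vale.Agent.P022.H724.Jac
import Vale.Agent.P022.H724.Q1
import Vale.Agent.P022.H220.SerT

/-!
P022 [MAIN1]: the theorem on the automorphic side, discriminant odd.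
-/

namespace Vale.Agent.P022.H494

open Vale.Agent.P022

/-- [THI] theta series of ideals are modular forms -/
theorem thiU : THIStmt :=
  H761.THI (H964.MFT (H138.LAW H420.po) H420.po) H724.IB H420.po

theorem van1U : VAN1Stmt := H761.VAN1 thiU (H220.ser H724.JAC) H724.Q1

theorem coreU : COREStmt := H545.CORE H587.LIM cls H576.SUP

theorem main1 : MAIN1Stmt := main1_of coreU van1U H587.app1 H576.NRM

end Vale.Agent.P022.H494
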