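import Vale.Agent.P022.H20.Frob

/-!
CF [APPL] (A1): the function on ideals attached to a character of `G_K`.
-/

open NumberField UniqueFactorizationMonoid
open scoped Pointwise

set_option linter.unusedSectionVars false

noncomputable section

namespace Vale.Agent.P022.H494

open Vale.Agent.P022 Vale.Agent.P022.H916 Vale.Agent.P022.H20

section frob

variable {K : Type*} [Field K] [NumberField K] (j : K →+* Qb) {A : Type*} [CommGroup A]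

/-- `φ` is trivial on the inertia groups above the primes `ℓ ∤ B` -/
def UnrOut (φ : GK j →* A) (B : ℕ) : Prop :=
  ∀ ℓ : ℕ, ℓ.Prime → ¬ ℓ ∣ B → ∀ P : Ideal (𝓞 Qb), P.IsPrime → (ℓ : 𝓞 Qb) ∈ P → ∀ g : GK j,
    (∀ x : 𝓞 Qb, (g : GQ) • x - x ∈ P) → φ g = 1

/-- the value of an unramified character on Frobenius elements depends only on the prime of `K` -/
theorem frob_unique {φ : GK j →* A} {B : ℕ} (hφ : UnrOut j φ B) {ℓ : ℕ} (hℓ : ℓ.Prime)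
    (hB : ¬ ℓ ∣ B) {P Q : Ideal (𝓞 Qb)} (hP : P.IsPrime) (hQ : Q.IsPrime)
    (hlP : (ℓ : 𝓞 Qb) ∈ P) (hPQ : below j P = below j Q) {g h : GK j}
    (hg : ∀ x : 𝓞 Qb, (g : GQ) • x - x ^ Ideal.absNorm (below j P) ∈ P)
    (hh : ∀ x : 𝓞 Qb, (h : GQ) • x - x ^ Ideal.absNorm (below j Q) ∈ Q) : φ g = φ h := by
  have hlQ : (ℓ : 𝓞 Qb) ∈ Q := by
    have h1 : (ℓ : 𝓞 K) ∈ below j Q := hPQ ▸ l_mem_below j hlP
    have h2 := mem_below.1 h1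
    rwa [map_natCast] at h2
  set n := Ideal.absNorm (below j Q) with hn
  have hn0 : n ≠ 0 := by
    rw [hn, Ne, Ideal.absNorm_eq_zero_iff]
    exact ne_bot_of_mem hℓ (l_mem_below j hlQ)
  rw [hPQ] at hg
  obtain ⟨c, hc⟩ := exists_smul j hP hQ hPQ
  -- the conjugate of `g` is a Frobenius element at `Q`
  have hQc : Q = cP (c : GQ)⁻¹ P := by
    rw [hc]
    ext x
    rw [mem_cP, Ideal.mem_pointwise_smul_iff_inv_smul_mem]
  have hg' : ∀ x : 𝓞 Qb, ((c * g * c⁻¹ : GK j) : GQ) • x - x ^ n ∈ Q := by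
    intro x
    have h1 := conj_frob (c := (c : GQ)⁻¹) hg x
    rw [← hQc] at h1
    have h2 : ((c : GQ)⁻¹)⁻¹ * ((g : GQ) * (c : GQ)⁻¹) = ((c * g * c⁻¹ : GK j) : GQ) := by
      push_cast
      group
    rwa [h2] at h1
  -- `Q` is stable under `h`
  have hst : ∀ x : 𝓞 Qb, (h : GQ) • x ∈ Q → x ∈ Q := by
    intro x hx
    have h1 : x ^ n ∈ Q := by
      have h2 := Q.sub_mem hx (hh x)
      rwa [sub_sub_cancel] at h2
    exact hQ.mem_of_pow_mem n h1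
  have hin : ∀ x : 𝓞 Qb, ((h⁻¹ * (c * g * c⁻¹) : GK j) : GQ) • x - x ∈ Q := by
    intro x
    apply hst
    rw [smul_sub, ← mul_smul]
    have h1 : (h : GQ) * ((h⁻¹ * (c * g * c⁻¹) : GK j) : GQ) = ((c * g * c⁻¹ : GK j) : GQ) := by
      push_cast
      group
    rw [h1]
    have h2 := Q.sub_mem (hg' x) (hh x)
    rwa [sub_sub_sub_cancel_right] at h2
  have h3 := hφ ℓ hℓ hB Q hQ hlQ _ hin
  rw [map_mul, map_inv, inv_mul_eq_one, map_mul, map_mul, map_inv, mul_comm (φ c),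
    mul_inv_cancel_right] at h3
  exact h3.symm

/-- the function `𝔭 ↦ φ(Frob_𝔭)` -/
theorem exists_frobFun (φ : GK j →* A) (B : ℕ) (hφ : UnrOut j φ B) :
    ∃ f : Ideal (𝓞 K) → A, (∀ 𝔭, ∃ h, f 𝔭 = φ h) ∧
      ∀ ℓ : ℕ, ℓ.Prime → ¬ ℓ ∣ B → ∀ P : Ideal (𝓞 Qb), P.IsPrime → (ℓ : 𝓞 Qb) ∈ P →
        ∀ g : GK j, (∀ x : 𝓞 Qb, (g : GQ) • x - x ^ Ideal.absNorm (below j P) ∈ P) →
          φ g = f (below j P) := by
  classical
  let R : Ideal (𝓞 K) → GK j → Prop := fun 𝔭 g => ∃ (ℓ : ℕ) (P : Ideal (𝓞 Qb)), ℓ.Prime ∧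
    ¬ ℓ ∣ B ∧ P.IsPrime ∧ (ℓ : 𝓞 Qb) ∈ P ∧
    (∀ x : 𝓞 Qb, (g : GQ) • x - x ^ Ideal.absNorm (below j P) ∈ P) ∧ below j P = 𝔭
  refine ⟨fun 𝔭 => if h : ∃ g, R 𝔭 g then φ h.choose else 1, fun 𝔭 => ?_, ?_⟩
  · by_cases h : ∃ g, R 𝔭 g
    · exact ⟨h.choose, by simp only [dif_pos h]⟩
    · exact ⟨1, by simp only [dif_neg h, map_one]⟩
  · intro ℓ hℓ hB P hP hlP g hg
    have h : ∃ g, R (below j P) g := ⟨g, ℓ, P, hℓ, hB, hP, hlP, hg, rfl⟩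
    simp only [dif_pos h]
    obtain ⟨ℓ', P', hℓ', hB', hP', hlP', hg', hPP'⟩ := h.choose_spec
    exact (frob_unique j hφ hℓ' hB' hP' hP hlP' hPP' hg' hg).symm

end frob

section ext

variable {K : Type*} [Field K] [NumberField K] {E : Type*}

/-- the multiplicative extension of a function on primes -/
def mulExt [Field E] (f : Ideal (𝓞 K) → Eˣ) : Ideal (𝓞 K) →* E where
  toFun 𝔞 := by
    classical
    exact if 𝔞 = ⊥ then 0 else ((normalizedFactors 𝔞).map fun 𝔭 => (f 𝔭 : E)).prod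
  map_one' := by
    rw [if_neg (by rw [Ideal.one_eq_top]; exact top_ne_bot), normalizedFactors_one,
      Multiset.map_zero, Multiset.prod_zero]
  map_mul' 𝔞 𝔟 := by
    classical
    by_cases ha : 𝔞 = ⊥
    · rw [if_pos (by rw [ha, Ideal.bot_mul]), if_pos ha, zero_mul]
    by_cases hb : 𝔟 = ⊥
    · rw [if_pos (by rw [hb, Ideal.mul_bot]), if_pos hb, mul_zero]
    have hab : 𝔞 * 𝔟 ≠ ⊥ := mul_ne_zero ha hb
    rw [if_neg hab, if_neg ha, if_neg hb, normalizedFactors_mul ha hb,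
      Multiset.map_add, Multiset.prod_add]

theorem mulExt_apply [Field E] (f : Ideal (𝓞 K) → Eˣ) {𝔞 : Ideal (𝓞 K)} (h : 𝔞 ≠ ⊥) :
    mulExt f 𝔞 = ((normalizedFactors 𝔞).map fun 𝔭 => (f 𝔭 : E)).prod := by
  classical
  show (if 𝔞 = ⊥ then (0 : E) else _) = _
  rw [if_neg h]

theorem mulExt_prime [Field E] (f : Ideal (𝓞 K) → Eˣ) {𝔭 : Ideal (𝓞 K)} (h : 𝔭 ≠ ⊥)
    (hp : 𝔭.IsPrime) : mulExt f 𝔭 = f 𝔭 := by
  rw [mulExt_apply f h, normalizedFactors_irreducible ((Ideal.prime_iff_isPrime h).2 hp).irreducible,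
    Multiset.map_singleton, Multiset.prod_singleton, normalize_eq]

theorem norm_mulExt [NormedField E] (f : Ideal (𝓞 K) → Eˣ) (hf : ∀ 𝔭, ‖(f 𝔭 : E)‖ = 1)
    {𝔞 : Ideal (𝓞 K)} (h : 𝔞 ≠ ⊥) : ‖mulExt f 𝔞‖ = 1 := by
  rw [mulExt_apply f h]
  induction normalizedFactors 𝔞 using Multiset.induction_on with
  | empty => simp
  | cons a s ih => rw [Multiset.map_cons, Multiset.prod_cons, norm_mul, hf, ih, one_mul]

end ext

/-- (A1) the function on ideals attached to a character of `G_K` -/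
theorem psi_of {K : Type*} [Field K] [NumberField K] (j : K →+* Qb) {E : Type*} [NormedField E]
    (χ : GK j →* Eˣ) (hn : ∀ h, ‖(χ h : E)‖ = 1) (B : ℕ) (hχ : UnrOut j χ B) :
    ∃ (f : Ideal (𝓞 K) → Eˣ) (ψ : Ideal (𝓞 K) →* E), (∀ 𝔭, ∃ h, f 𝔭 = χ h) ∧
      (∀ ℓ : ℕ, ℓ.Prime → ¬ ℓ ∣ B → ∀ P : Ideal (𝓞 Qb), P.IsPrime → (ℓ : 𝓞 Qb) ∈ P →
        ∀ g : GK j, (∀ x : 𝓞 Qb, (g : GQ) • x - x ^ Ideal.absNorm (below j P) ∈ P) →
          χ g = f (below j P)) ∧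
      (∀ 𝔞 : Ideal (𝓞 K), 𝔞 ≠ ⊥ →
        ψ 𝔞 = ((normalizedFactors 𝔞).map fun 𝔭 => (f 𝔭 : E)).prod) ∧
      (∀ 𝔞 : Ideal (𝓞 K), 𝔞 ≠ ⊥ → ‖ψ 𝔞‖ = 1) ∧ Attached j χ ψ B := by
  obtain ⟨f, hf1, hf2⟩ := exists_frobFun j χ B hχ
  refine ⟨f, mulExt f, hf1, hf2, fun 𝔞 h => mulExt_apply f h, fun 𝔞 h => norm_mulExt f ?_ h, ?_⟩
  · intro 𝔭
    obtain ⟨h, hh⟩ := hf1 𝔭
    rw [hh, hn]
  · intro ℓ hℓ hB P hP hlP g
    refine ⟨fun h => hχ ℓ hℓ hB P hP hlP g h, fun h => ?_⟩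
    rw [mulExt_prime f (ne_bot_of_mem hℓ (l_mem_below j hlP)) (below_prime j hP),
      hf2 ℓ hℓ hB P hP hlP g h]

end Vale.Agent.P022.H494
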