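import Mathlib

/-!
CF [APX]: weak approximation of local norms by global norms.
-/

open IsDedekindDomain IsDedekindDomain.HeightOneSpectrum NumberField WithZero
open scoped TensorProduct

noncomputable section

namespace Vale.Agent.P022.H494

section wa

variable {K : Type*} [Field K] [NumberField K]

theorem exists_exp_le {γ : WithZero (Multiplicative ℤ)} (hγ : γ ≠ 0) :
    ∃ e : ℕ, exp (-(e : ℤ)) ≤ γ := by
  obtain ⟨a, rfl⟩ : ∃ a : ℤ, exp a = γ := ⟨log γ, exp_log hγ⟩
  refine ⟨a.natAbs, ?_⟩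
  rw [exp_le_exp]
  omega

/-- weak approximation at finitely many primes -/
theorem wa (T : Finset (HeightOneSpectrum (𝓞 K))) (x : HeightOneSpectrum (𝓞 K) → K) (k : ℕ) :
    ∃ y : K, ∀ v ∈ T, v.valuation K (y - x v) ≤ exp (-(k : ℤ)) := by
  classical
  obtain ⟨d, hd⟩ := IsLocalization.exist_integer_multiples_of_finset (nonZeroDivisors (𝓞 K))
    (T.image x)
  have hd' : ∀ v : T, ∃ a : 𝓞 K, algebraMap (𝓞 K) K a = (d : 𝓞 K) • x v.1 := fun v =>
    hd (x v.1) (Finset.mem_image_of_mem _ v.2)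
  choose a ha using hd'
  have hd0 : algebraMap (𝓞 K) K d ≠ 0 := by
    have := nonZeroDivisors.coe_ne_zero d
    exact (map_ne_zero_iff _ (IsFractionRing.injective (𝓞 K) K)).2 this
  have he : ∀ v : HeightOneSpectrum (𝓞 K), ∃ e : ℕ,
      exp (-(e : ℤ)) ≤ exp (-(k : ℤ)) * v.valuation K (algebraMap (𝓞 K) K d) := fun v =>
    exists_exp_le (mul_ne_zero exp_ne_zero ((Valuation.ne_zero_iff _).2 hd0))
  choose e he using he
  obtain ⟨b, hb⟩ := IsDedekindDomain.exists_forall_sub_mem_ideal (s := T)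
    (fun v : HeightOneSpectrum (𝓞 K) => v.asIdeal) e (fun v _ => v.prime)
    (fun v _ w _ hvw h => hvw (HeightOneSpectrum.ext h)) a
  refine ⟨algebraMap (𝓞 K) K b / algebraMap (𝓞 K) K d, fun v hv => ?_⟩
  have h1 : algebraMap (𝓞 K) K b / algebraMap (𝓞 K) K d - x v =
      algebraMap (𝓞 K) K (b - a ⟨v, hv⟩) / algebraMap (𝓞 K) K d := by
    rw [map_sub, ha ⟨v, hv⟩, Algebra.smul_def]
    field_simp
  rw [h1, map_div₀, div_le_iff₀ (zero_lt_iff.2 ((Valuation.ne_zero_iff _).2 hd0)),
    valuation_of_algebraMap]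
  exact ((v.intValuation_le_pow_iff_mem _ _).2 (hb v hv)).trans (he v)

theorem valued_alg' (v : HeightOneSpectrum (𝓞 K)) (x : K) :
    Valued.v (algebraMap K (v.adicCompletion K) x) = v.valuation K x :=
  valuedAdicCompletion_eq_valuation' v x

theorem norm_le_iff' (v : HeightOneSpectrum (𝓞 K)) (x y : v.adicCompletion K) :
    ‖x‖ ≤ ‖y‖ ↔ Valued.v x ≤ Valued.v y := by
  rw [NumberField.FinitePlace.norm_def v x, NumberField.FinitePlace.norm_def v y,
    NNReal.coe_le_coe]
  exact (WithZeroMulInt.toNNReal_strictMono (NumberField.HeightOneSpectrum.one_lt_absNorm_nnreal v)).le_iff_le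

theorem norm_lt_iff' (v : HeightOneSpectrum (𝓞 K)) (x y : v.adicCompletion K) :
    ‖x‖ < ‖y‖ ↔ Valued.v x < Valued.v y := by
  rw [← not_le, ← not_le, norm_le_iff']

/-- a ball in terms of the valuation -/
theorem exists_exp_ball (v : HeightOneSpectrum (𝓞 K)) {ε : ℝ} (hε : 0 < ε) :
    ∃ e : ℕ, ∀ x : v.adicCompletion K, Valued.v x ≤ exp (-(e : ℤ)) → ‖x‖ < ε := by
  obtain ⟨z, hz⟩ := v.valuedAdicCompletion_surjective K (exp (-1))
  have h1 : ‖z‖ < 1 := by
    rw [← norm_one (α := v.adicCompletion K), norm_lt_iff', hz, map_one, ← exp_zero, exp_lt_exp]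
    norm_num
  obtain ⟨n, hn⟩ := exists_pow_lt_of_lt_one hε h1
  refine ⟨n, fun x hx => lt_of_le_of_lt ?_ hn⟩
  rw [← norm_pow, norm_le_iff', map_pow, hz, ← exp_nsmul]
  simpa using hx

theorem isOpen_val' (v : HeightOneSpectrum (𝓞 K)) (γ : WithZero (Multiplicative ℤ)) :
    IsOpen {x : v.adicCompletion K | Valued.v x < γ} := by
  obtain ⟨z, hz⟩ := v.valuedAdicCompletion_surjective K γ
  have h1 : {x : v.adicCompletion K | Valued.v x < γ} = {x : v.adicCompletion K | ‖x‖ < ‖z‖} := by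
    ext x
    rw [Set.mem_ofPred_eq, Set.mem_ofPred_eq, norm_lt_iff', hz]
  rw [h1]
  exact isOpen_lt continuous_norm continuous_const

/-- simultaneous density in finitely many completions -/
theorem wa_compl (T : Finset (HeightOneSpectrum (𝓞 K)))
    (U : ∀ v : HeightOneSpectrum (𝓞 K), Set (v.adicCompletion K))
    (hU : ∀ v, IsOpen (U v)) (hne : ∀ v, (U v).Nonempty) :
    ∃ y : K, ∀ v ∈ T, algebraMap K (v.adicCompletion K) y ∈ U v := by
  classical
  have h1 : ∀ v : HeightOneSpectrum (𝓞 K), ∃ (x : K) (e : ℕ),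
      ∀ y : K, v.valuation K (y - x) ≤ exp (-(e : ℤ)) →
        algebraMap K (v.adicCompletion K) y ∈ U v := by
    intro v
    obtain ⟨x, hx⟩ := (HeightOneSpectrum.denseRange_algebraMap K v).exists_mem_open (hU v) (hne v)
    obtain ⟨ε, hε, hb⟩ := Metric.isOpen_iff.1 (hU v) _ hx
    obtain ⟨e, he⟩ := exists_exp_ball v hε
    refine ⟨x, e, fun y hy => hb ?_⟩
    rw [Metric.mem_ball, dist_eq_norm, ← map_sub]
    exact he _ (by rw [valued_alg']; exact hy)
  choose x e he using h1
  obtain ⟨y, hy⟩ := wa T x (T.sup e)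
  refine ⟨y, fun v hv => he v y ((hy v hv).trans ?_)⟩
  rw [exp_le_exp]
  have := Finset.le_sup (f := e) hv
  omega

end wa

section apx

variable {K L : Type} [Field K] [NumberField K] [Field L] [NumberField L] [Algebra K L]

/-- the action of an automorphism on `R ⊗ L` -/
def act (R : Type) [CommRing R] [Algebra K R] (g : L ≃ₐ[K] L) : R ⊗[K] L ≃ₐ[R] R ⊗[K] L :=
  Algebra.TensorProduct.congr AlgEquiv.refl g

omit [NumberField K] [NumberField L] in
theorem act_tmul (R : Type) [CommRing R] [Algebra K R] (g : L ≃ₐ[K] L) (r : R) (x : L) :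
    act R g (r ⊗ₜ[K] x) = r ⊗ₜ[K] g x := by
  rw [act]
  simp

/-- `α` is a norm from `R ⊗ L` -/
def LN (R : Type) [CommRing R] [Algebra K R] (L : Type) [Field L] [NumberField L] [Algebra K L]
    (α : K) : Prop :=
  ∃ y : R ⊗[K] L, ∏ g : L ≃ₐ[K] L, act R g y = algebraMap K (R ⊗[K] L) α

/-- one place: the set of coordinates `ξ` for which the norm of `∑ ξ_i b_i` is close to `β` -/
theorem one_place [IsGalois K L] (v : HeightOneSpectrum (𝓞 K)) {β : K}
    (h : LN (v.adicCompletion K) L β) {γ : WithZero (Multiplicative ℤ)} (hγ : γ ≠ 0)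
    {ι : Type} [Fintype ι] (b : Module.Basis ι K L) :
    ∃ U : ι → Set (v.adicCompletion K), (∀ i, IsOpen (U i)) ∧ (∀ i, (U i).Nonempty) ∧
      ∀ c : ι → K, (∀ i, algebraMap K (v.adicCompletion K) (c i) ∈ U i) →
        v.valuation K (Algebra.norm K (∑ i, c i • b i) - β) < γ := by
  classical
  set R := v.adicCompletion K with hR
  let _ : TopologicalSpace (R ⊗[K] L) := moduleTopology R (R ⊗[K] L)
  have : IsModuleTopology R (R ⊗[K] L) := ⟨rfl⟩
  have : IsTopologicalRing (R ⊗[K] L) := IsModuleTopology.isTopologicalRing R (R ⊗[K] L)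
  obtain ⟨y, hy⟩ := h
  set B : Module.Basis ι R (R ⊗[K] L) := b.baseChange R with hB
  have hBi : ∀ i, B i = 1 ⊗ₜ[K] b i := fun i => by rw [hB, Module.Basis.baseChange_apply]
  -- a functional which is one at one
  obtain ⟨π, hπ⟩ : ∃ π : R ⊗[K] L →ₗ[R] R, π 1 = 1 := by
    have hinj : LinearMap.ker (Algebra.linearMap R (R ⊗[K] L)) = ⊥ := by
      rw [LinearMap.ker_eq_bot]
      exact FaithfulSMul.algebraMap_injective R (R ⊗[K] L)
    obtain ⟨π, hπ⟩ := LinearMap.exists_leftInverse_of_injective _ hinj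
    refine ⟨π, ?_⟩
    have h1 := LinearMap.congr_fun hπ 1
    rw [LinearMap.comp_apply, LinearMap.id_apply, Algebra.linearMap_apply, map_one] at h1
    exact h1
  let Φ : (ι → R) →ₗ[R] R ⊗[K] L := B.equivFun.symm.toLinearMap
  have hΦ : Continuous Φ := IsModuleTopology.continuous_of_linearMap Φ
  have hπc : Continuous π := IsModuleTopology.continuous_of_linearMap π
  have hact : ∀ g : L ≃ₐ[K] L, Continuous (act R g) := fun g =>
    IsModuleTopology.continuous_of_linearMap (act R g).toLinearMap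
  let H : (ι → R) → R := fun ξ => π (∏ g : L ≃ₐ[K] L, act R g (Φ ξ))
  have hH : Continuous H := hπc.comp (continuous_finsetProd _ fun g _ => (hact g).comp hΦ)
  have hπa : ∀ r : R, π (algebraMap R (R ⊗[K] L) r) = r := by
    intro r
    rw [Algebra.algebraMap_eq_smul_one, map_smul, hπ, smul_eq_mul, mul_one]
  have h1 : H (B.equivFun y) = algebraMap K R β := by
    show π (∏ g : L ≃ₐ[K] L, act R g (B.equivFun.symm (B.equivFun y))) = _
    rw [LinearEquiv.symm_apply_apply, hy, IsScalarTower.algebraMap_apply K R (R ⊗[K] L), hπa]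
  have h2 : ∀ c : ι → K, H (fun i => algebraMap K R (c i)) =
      algebraMap K R (Algebra.norm K (∑ i, c i • b i)) := by
    intro c
    have h3 : Φ (fun i => algebraMap K R (c i)) = 1 ⊗ₜ[K] (∑ i, c i • b i) := by
      show B.equivFun.symm _ = _
      rw [Module.Basis.equivFun_symm_apply, TensorProduct.tmul_sum]
      refine Finset.sum_congr rfl fun i _ => ?_
      rw [hBi, TensorProduct.smul_tmul', smul_eq_mul, mul_one, TensorProduct.tmul_smul,
        TensorProduct.smul_tmul', Algebra.smul_def, mul_one]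
    show π (∏ g : L ≃ₐ[K] L, act R g (Φ _)) = _
    rw [h3]
    have h4 : (∏ g : L ≃ₐ[K] L, act R g (1 ⊗ₜ[K] (∑ i, c i • b i) : R ⊗[K] L)) =
        algebraMap K (R ⊗[K] L) (Algebra.norm K (∑ i, c i • b i)) := by
      have h5 : ∀ g : L ≃ₐ[K] L, act R g (1 ⊗ₜ[K] (∑ i, c i • b i) : R ⊗[K] L) =
          Algebra.TensorProduct.includeRight (g (∑ i, c i • b i)) := fun g => by
        rw [act_tmul]; rfl
      simp_rw [h5]
      rw [← map_prod, ← Algebra.norm_eq_prod_automorphisms, AlgHom.commutes]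
    rw [h4, IsScalarTower.algebraMap_apply K R (R ⊗[K] L), hπa]
  have hO : IsOpen (H ⁻¹' {r | Valued.v (r - algebraMap K R β) < γ}) :=
    ((isOpen_val' v γ).preimage (continuous_id.sub continuous_const)).preimage hH
  have hmem : B.equivFun y ∈ H ⁻¹' {r | Valued.v (r - algebraMap K R β) < γ} := by
    show Valued.v (H (B.equivFun y) - algebraMap K R β) < γ
    rw [h1, sub_self, map_zero]
    exact zero_lt_iff.2 hγ
  obtain ⟨U, hU, hsub⟩ := isOpen_pi_iff'.1 hO _ hmem
  refine ⟨U, fun i => (hU i).1, fun i => ⟨_, (hU i).2⟩, fun c hc => ?_⟩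
  have h6 : (fun i => algebraMap K R (c i)) ∈
      H ⁻¹' {r | Valued.v (r - algebraMap K R β) < γ} := hsub fun i _ => hc i
  have h7 : Valued.v (H (fun i => algebraMap K R (c i)) - algebraMap K R β) < γ := h6
  rw [h2, ← map_sub, valued_alg'] at h7
  exact h7

/-- [APX] an element which is a local norm at the places of `T` is close to a global norm -/
theorem apx [IsGalois K L] (T : Finset (HeightOneSpectrum (𝓞 K))) {β : K} (hβ : β ≠ 0)
    (h : ∀ v ∈ T, LN (v.adicCompletion K) L β) (k : ℕ) :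
    ∃ c : L, c ≠ 0 ∧ ∀ v ∈ T, v.valuation K (β / Algebra.norm K c - 1) ≤ exp (-(k : ℤ)) := by
  classical
  rcases T.eq_empty_or_nonempty with rfl | ⟨v₀, hv₀⟩
  · exact ⟨1, one_ne_zero, fun v hv => absurd hv (Finset.notMem_empty v)⟩
  let b := Module.finBasis K L
  have h1 : ∀ v : HeightOneSpectrum (𝓞 K), ∃ U : Fin (Module.finrank K L) →
      Set (v.adicCompletion K), (∀ i, IsOpen (U i)) ∧ (∀ i, (U i).Nonempty) ∧
      (v ∈ T → ∀ c : Fin (Module.finrank K L) → K,
        (∀ i, algebraMap K (v.adicCompletion K) (c i) ∈ U i) →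
        v.valuation K (Algebra.norm K (∑ i, c i • b i) - β) <
          exp (-(k : ℤ)) * v.valuation K β) := by
    intro v
    by_cases hv : v ∈ T
    · obtain ⟨U, hU, hne, hc⟩ := one_place v (h v hv)
        (mul_ne_zero exp_ne_zero ((Valuation.ne_zero_iff _).2 hβ)) b
      exact ⟨U, hU, hne, fun _ => hc⟩
    · exact ⟨fun _ => Set.univ, fun _ => isOpen_univ, fun _ => Set.univ_nonempty,
        fun hv' => absurd hv' hv⟩
  choose U hU hne hc using h1
  have h2 : ∀ i, ∃ y : K, ∀ v ∈ T, algebraMap K (v.adicCompletion K) y ∈ U v i := fun i =>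
    wa_compl T (fun v => U v i) (fun v => hU v i) (fun v => hne v i)
  choose c hcU using h2
  have h3 : ∀ v ∈ T, v.valuation K (Algebra.norm K (∑ i, c i • b i) - β) <
      exp (-(k : ℤ)) * v.valuation K β := fun v hv => hc v hv c fun i => hcU i v hv
  have h4 : ∀ v ∈ T, v.valuation K (Algebra.norm K (∑ i, c i • b i)) = v.valuation K β := by
    intro v hv
    refine Valuation.map_eq_of_sub_lt _ ((h3 v hv).trans_le ?_)
    calc exp (-(k : ℤ)) * v.valuation K β ≤ 1 * v.valuation K β := by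
          refine mul_le_mul_left ?_ _
          rw [← exp_zero, exp_le_exp]
          omega
      _ = v.valuation K β := one_mul _
  have h5 : Algebra.norm K (∑ i, c i • b i) ≠ 0 := by
    intro h0
    have := h4 v₀ hv₀
    rw [h0, map_zero] at this
    exact (Valuation.ne_zero_iff _).2 hβ this.symm
  refine ⟨∑ i, c i • b i, fun h0 => h5 (by rw [h0]; exact Algebra.norm_zero), fun v hv => ?_⟩
  have h6 : β / Algebra.norm K (∑ i, c i • b i) - 1 =
      -(Algebra.norm K (∑ i, c i • b i) - β) / Algebra.norm K (∑ i, c i • b i) := by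
    field_simp
    ring
  rw [h6, map_div₀, Valuation.map_neg, h4 v hv,
    div_le_iff₀ (zero_lt_iff.2 ((Valuation.ne_zero_iff _).2 hβ))]
  exact (h3 v hv).le

end apx

end Vale.Agent.P022.H494
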