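import Vale.Agent.P022.H472.Lit2

/-!
P022 [CLS]: an ideal prime to `n` in the class inverse to a given ideal.
-/

open scoped NumberField

noncomputable section

namespace Vale.Agent.P022.H494

open Vale.Agent.P022

theorem cls : CLSStmt := by
  intro K _ _ n hn 𝔞 h𝔞
  have hnK : (n : 𝓞 K) ≠ 0 := by exact_mod_cast hn
  have hn0 : Ideal.span {(n : 𝓞 K)} ≠ ⊥ := by
    rw [Ne, Ideal.span_singleton_eq_bot]
    exact hnK
  have hle : 𝔞 * Ideal.span {(n : 𝓞 K)} ≤ 𝔞 := Ideal.mul_le_left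
  obtain ⟨α, hα⟩ := IsDedekindDomain.exists_sup_span_eq hle (mul_ne_zero h𝔞 hn0)
  by_cases h0 : α = 0
  · obtain ⟨β, hβ, hβ0⟩ := Submodule.exists_mem_ne_zero_of_ne_bot h𝔞
    have hdvd : 𝔞 ∣ Ideal.span {β} := by
      rw [Ideal.dvd_span_singleton]
      exact hβ
    obtain ⟨𝔟, h𝔟⟩ := hdvd
    refine ⟨𝔟, β, hβ0, ?_, by rw [h𝔟, mul_comm]⟩
    have h1 : Ideal.span {(n : 𝓞 K)} = ⊤ := by
      subst h0
      have h2 : 𝔞 * Ideal.span {(n : 𝓞 K)} = 𝔞 * ⊤ := by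
        simpa using hα
      exact mul_left_cancel₀ h𝔞 h2
    rw [h1, Ideal.isCoprime_iff_sup_eq]
    simp
  · have hdvd : 𝔞 ∣ Ideal.span {α} := by
      rw [Ideal.dvd_span_singleton]
      rw [← hα]
      exact Ideal.mem_sup_right (Ideal.mem_span_singleton_self α)
    obtain ⟨𝔟, h𝔟⟩ := hdvd
    refine ⟨𝔟, α, h0, ?_, by rw [h𝔟, mul_comm]⟩
    rw [Ideal.isCoprime_iff_sup_eq]
    rw [h𝔟, ← Ideal.mul_sup] at hα
    have h2 : 𝔞 * (Ideal.span {(n : 𝓞 K)} ⊔ 𝔟) = 𝔞 * ⊤ := by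
      rw [hα, Ideal.mul_top]
    have h3 := mul_left_cancel₀ h𝔞 h2
    rw [sup_comm]
    exact h3

end Vale.Agent.P022.H494
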