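import Vale.Agent.P022.H494.Cls

/-!
P022 [MAIN1]: the theorem on the automorphic side, discriminant odd, from the blocks.
-/

open scoped NumberField

noncomputable section

namespace Vale.Agent.P022.H494

open Vale.Agent.P022

/-- the vanishing property for the functions periodic mod `m` -/
theorem van_of (hV : VAN1Stmt) (K : Type) [Field K] [NumberField K]
    [Algebra.IsQuadraticExtension ℚ K] [NumberField.IsTotallyComplex K] (D : ℕ)
    (hd : NumberField.discr K = -(D : ℤ)) (hD : Odd D) (m : ℕ) (hm : 0 < m)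
    [NeZero (D * m ^ 2)] {E : Type} [NontriviallyNormedField E] (ι : K →+* E) :
    Van K (D * m ^ 2) (fun ℓ => jacobiSym (ℓ : ℤ) D) ι
      {f : 𝓞 K → ℤ | ∀ α β : 𝓞 K, f (α + m * β) = f α} := by
  intro f hf κ 𝔟 h𝔟 ε hε
  refine ⟨κ + 1, fun P hP => ?_⟩
  rw [hV K D hd hD m hm 𝔟 h𝔟 f hf κ P (hP κ (Nat.lt_succ_self κ))]
  simpa using hε

theorem main1_of (hC : COREStmt) (hV : VAN1Stmt) (hA : APP1Stmt) (hN : NRMStmt) : MAIN1Stmt := by
  intro K _ _ _ _ D hd hD E _ _ _ _ ι m hm _ ψ hψ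
  have h1 := hN K E ι m hm ψ hψ
  exact hC K E ι m hm (D * m ^ 2) (dvd_mul_of_dvd_right (dvd_pow_self m two_ne_zero) D)
    (fun ℓ => jacobiSym (ℓ : ℤ) D) ψ h1 _ (hA K E ι m hm ψ hψ h1)
    (van_of hV K D hd hD m hm.pos ι)

end Vale.Agent.P022.H494
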