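import Vale.Agent.P022.H472.Lit

/-!
# P022: the algebra `T₂(N)`, thin definitions for the statement
-/

open scoped ModularForm MatrixGroups TensorProduct
open UpperHalfPlane Matrix CongruenceSubgroup

noncomputable section

namespace Vale.Agent.P022.D

/-- block diagonal operators on `M_1(Γ₁(N)) ⊕ ... ⊕ M_k(Γ₁(N))` (the index `i < k` is the
weight `i + 1`) -/
def EN (N k : ℕ) : Type := ∀ i : Fin k, Module.End ℂ (MF N (i + 1))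

instance instEN (N k : ℕ) : Ring (EN N k) := Pi.ring

/-- `x` is the operator `T_ℓ` -/
def IsT (N k : ℕ) (ℓ : PA N) (x : EN N k) : Prop :=
  ∀ (i : Fin k) (f : MF N (i + 1)), ⇑(x i f) = tFun N (i + 1) ℓ f

/-- `x` is the operator `ℓ S_ℓ`, that is `ℓ ^ i ⟨ℓ⟩` in weight `i + 1` -/
def IsS (N k : ℕ) (ℓ : PA N) (x : EN N k) : Prop :=
  ∀ (i : Fin k) (f : MF N (i + 1)), ⇑(x i f) = ((ℓ.1 : ℂ) ^ (i : ℕ)) • dFun N (i + 1) ℓ f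

/-- `T_{≤ k}(N)`: the `ℤ`-algebra generated by all `T_ℓ` and `ℓ S_ℓ`, `ℓ ∤ 2N` -/
def TZ (N k : ℕ) : Subring (EN N k) := Subring.closure {x | ∃ ℓ : PA N, IsT N k ℓ x ∨ IsS N k ℓ x}

/-- `T_{≤ k}(N)` as a type -/
def TT (N k : ℕ) : Type := TZ N k

instance instTT (N k : ℕ) : Ring (TT N k) := (TZ N k).toRing

/-- `ℤ₂ ⊗ T_{≤ k}(N)` -/
def ZT (N k : ℕ) : Type := ℤ_[2] ⊗[ℤ] TT N k

instance instZT (N k : ℕ) : Ring (ZT N k) := Algebra.TensorProduct.instRing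

instance instZTA (N k : ℕ) : Algebra ℤ_[2] (ZT N k) := Algebra.TensorProduct.leftAlgebra

/-- restriction to fewer weights -/
def rE (N : ℕ) {k k' : ℕ} (h : k ≤ k') : EN N k' →+* EN N k where
  toFun x i := x (Fin.castLE h i)
  map_one' := rfl
  map_mul' _ _ := rfl
  map_zero' := rfl
  map_add' _ _ := rfl

theorem rE_mem (N : ℕ) {k k' : ℕ} (h : k ≤ k') (x : TT N k') : rE N h x.1 ∈ TZ N k := by
  have h1 : TZ N k' ≤ (TZ N k).comap (rE N h) := by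
    refine Subring.closure_le.2 ?_
    rintro y ⟨ℓ, hy | hy⟩
    · exact Subring.subset_closure ⟨ℓ, Or.inl fun i f => hy (Fin.castLE h i) f⟩
    · exact Subring.subset_closure ⟨ℓ, Or.inr fun i f => hy (Fin.castLE h i) f⟩
  exact h1 x.2

/-- the transition map `T_{≤ k'}(N) → T_{≤ k}(N)` -/
def rT (N : ℕ) {k k' : ℕ} (h : k ≤ k') : TT N k' →+* TT N k :=
  ((rE N h).comp (TZ N k').subtype).codRestrict (TZ N k) (rE_mem N h)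

/-- the transition map `ℤ₂ ⊗ T_{≤ k'}(N) → ℤ₂ ⊗ T_{≤ k}(N)` -/
def rZ (N : ℕ) {k k' : ℕ} (h : k ≤ k') : ZT N k' →ₐ[ℤ_[2]] ZT N k :=
  Algebra.TensorProduct.map (AlgHom.id ℤ_[2] ℤ_[2]) (rT N h).toIntAlgHom

/-- `T₂(N)`, the inverse limit of the `ℤ₂ ⊗ T_{≤ k}(N)`, in their product -/
def T2s (N : ℕ) : Subalgebra ℤ_[2] (∀ k, ZT N k) :=
  ⨅ (k : ℕ) (k' : ℕ) (h : k ≤ k'),
    AlgHom.equalizer ((rZ N h).comp (Pi.evalAlgHom ℤ_[2] (ZT N) k')) (Pi.evalAlgHom ℤ_[2] (ZT N) k)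

/-- `T₂(N)` as a type -/
def T2 (N : ℕ) : Type := T2s N

instance instT2 (N : ℕ) : Ring (T2 N) := Subalgebra.toRing (T2s N)

/-- the component of `x ∈ T₂(N)` in `ℤ₂ ⊗ T_{≤ k}(N)` -/
def cp (N : ℕ) (x : T2 N) (k : ℕ) : ZT N k := x.1 k

/-- the element `z ⊗ x` of `ℤ₂ ⊗ T_{≤ k}(N)` -/
def tn (N : ℕ) {k : ℕ} (z : ℤ_[2]) (x : TT N k) : ZT N k := z ⊗ₜ[ℤ] x

/-- `t` is the element `T_ℓ` of `T₂(N)` -/
def IsT2 (N : ℕ) (ℓ : PA N) (t : T2 N) : Prop :=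
  ∀ k, ∃ x : TT N k, IsT N k ℓ x.1 ∧ cp N t k = tn N 1 x

/-- `t` is the element `ℓ S_ℓ` of `T₂(N)` -/
def IsS2 (N : ℕ) (ℓ : PA N) (t : T2 N) : Prop :=
  ∀ k, ∃ x : TT N k, IsS N k ℓ x.1 ∧ cp N t k = tn N 1 x

/-- `lam` is a continuous `ℤ₂`-algebra homomorphism `T₂(N) → 𝓞_E` -/
def IsCont (N : ℕ) (E : Type) [NontriviallyNormedField E] [NormedAlgebra ℚ_[2] E]
    (lam : T2 N →+* E) : Prop :=
  (∀ (z : ℤ_[2]) (x : T2 N), (∀ k, cp N x k = tn N z 1) → lam x = algebraMap ℚ_[2] E z) ∧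
  (∀ x, ‖lam x‖ ≤ 1) ∧
  ∀ ε : ℝ, 0 < ε → ∃ k M : ℕ, ∀ x : T2 N, (∃ y : ZT N k, cp N x k = 2 ^ M * y) → ‖lam x‖ < ε

end Vale.Agent.P022.D
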